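import Vale.Agent.P160.Rate2.Final

/-!
An explicit exponential bound for the probability that a symmetric random sign matrix is singular.
-/

namespace Vale.Agent.Results.P160.ExplicitRate

open Filter Vale.Agent.P160

theorem result :
    ∀ᶠ n : ℕ in atTop, prob n (fun M => M.det = 0) ≤ (4 / 5 : ℝ) ^ n :=
  Vale.Agent.P160.Rate2.singular_le

end Vale.Agent.Results.P160.ExplicitRate
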