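import Mathlib
import Vale.Agent.P160.Defs
import Vale.Agent.P160.Asymptotic
import Vale.Agent.P160.FamilyLarge

/-!
Exact asymptotics for all singularity that is not carried by dense null vectors.
-/

namespace Vale.Agent.Results.P160.NondenseAsymptotic

open Filter Topology Vale.Agent.P160

theorem result :
    Tendsto (fun n : ℕ => prob n HasNondenseNull / ((n : ℝ) ^ 2 / 2 ^ n)) atTop (𝓝 1) ∧
    Tendsto (fun n : ℕ =>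
      (prob n (fun M => M.det = 0) - prob n (fun M => M.det = 0 ∧ ¬ HasNondenseNull M)) /
        ((n : ℝ) ^ 2 / 2 ^ n)) atTop (𝓝 1) ∧
    (Tendsto (fun n : ℕ => prob n (fun M => M.det = 0) ^ (1 / (n : ℝ))) atTop (𝓝 (1 / 2)) ↔
      ∀ η > (1 / 2 : ℝ), ∀ᶠ n : ℕ in atTop,
        prob n (fun M => M.det = 0 ∧ ¬ HasNondenseNull M) ≤ η ^ n) ∧
    (∀ θ < (1 / 2 : ℝ), ∃ K : ℝ, ∀ ε > (0 : ℝ), ∀ᶠ n : ℕ in atTop,
      ∀ k : ℕ, K * n / Real.log n ≤ k →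
      ∀ 𝒲 : Finset (Submodule ℝ (Fin n → ℝ)), (𝒲.card : ℝ) ≤ (n : ℝ) ^ (θ * k) →
        (∀ W ∈ 𝒲, Module.finrank ℝ W + k ≤ n) →
        prob n (fun M => ∃ W ∈ 𝒲, ∃ v ∈ W, v ≠ 0 ∧ M.mulVec v = 0) ≤
          (1 + ε) * ((n : ℝ) ^ 2 / 2 ^ n)) ∧
    ∀ θ < (1 / 2 : ℝ), ∀ ε > (0 : ℝ), ∀ᶠ n : ℕ in atTop,
      prob n (fun M => ∃ z : Fin n → ℤ, z ≠ 0 ∧ (∀ i, |(z i : ℝ)| ≤ (n : ℝ) ^ θ) ∧
        M.mulVec (fun i => (z i : ℝ)) = 0) ≤ (1 + ε) * ((n : ℝ) ^ 2 / 2 ^ n) := by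
  refine ⟨nondense_asymptotic, ?_, rate_iff, fun θ hθ => family_asymptotic_large hθ,
    fun θ hθ ε hε => bounded_height_asymptotic hθ ε hε⟩
  simpa [singular_split] using nondense_asymptotic

end Vale.Agent.Results.P160.NondenseAsymptotic
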